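import Vale.Agent.P159.TM.H504.Geo

/-!
P159, row DIAM: explicit flow of bounded energy from the uniform measure of a box to a lattice path
of diameter comparable with the side.
-/

open Finset

namespace Vale.Agent.P159.TM.H504

/-- signed indicator of the steps from `v` to `u` -/
noncomputable def kk (v u t : ℤ) : ℝ :=
  (if v ≤ t ∧ t < u then 1 else 0) - (if u ≤ t ∧ t < v then 1 else 0)

lemma abs_kk (v u t : ℤ) : |kk v u t| ≤ 1 := by
  unfold kk
  by_cases h1 : v ≤ t ∧ t < u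
  · rw [if_pos h1, if_neg (by omega)]; norm_num
  · rw [if_neg h1]
    by_cases h2 : u ≤ t ∧ t < v
    · rw [if_pos h2]; norm_num
    · rw [if_neg h2]; norm_num

lemma kk_swap (v u t : ℤ) : kk u v t = -kk v u t := by unfold kk; ring

lemma tele_up (f : ℤ → ℝ) (v : ℤ) (k : ℕ) :
    ∑ x ∈ Ico v (v + k), (f (x + 1) - f x) = f (v + k) - f v := by
  induction k with
  | zero => simp
  | succ k ih =>
    have h1 : Ico v (v + ((k + 1 : ℕ) : ℤ)) = insert (v + (k : ℤ)) (Ico v (v + (k : ℤ))) := by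
      ext x
      simp only [mem_Ico, mem_insert, Nat.cast_add, Nat.cast_one]
      omega
    rw [h1, sum_insert (by simp), ih]
    push_cast
    rw [show v + ((k : ℤ) + 1) = v + k + 1 by ring]
    ring

/-- telescoping with the signed indicator -/
lemma tele (f : ℤ → ℝ) {a : ℤ} {N : ℕ} {u v : ℤ} (hu : u ∈ Ico a (a + N))
    (hv : v ∈ Ico a (a + N)) :
    ∑ t ∈ Ico a (a + N - 1), kk v u t * (f (t + 1) - f t) = f u - f v := by
  wlog h : v ≤ u generalizing u v
  · have := this hv hu (le_of_not_ge h)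
    have e : ∑ t ∈ Ico a (a + N - 1), kk v u t * (f (t + 1) - f t) =
        -∑ t ∈ Ico a (a + N - 1), kk u v t * (f (t + 1) - f t) := by
      rw [← sum_neg_distrib]
      exact sum_congr rfl fun t _ => by rw [kk_swap v u]; ring
    rw [e, this]
    ring
  rw [mem_Ico] at hu hv
  obtain ⟨k, hk⟩ := Int.eq_ofNat_of_zero_le (sub_nonneg.2 h)
  have hu' : u = v + k := by
    have : u - v = (k : ℤ) := hk
    omega
  have h1 : ∀ t ∈ Ico a (a + N - 1), kk v u t * (f (t + 1) - f t) =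
      if t ∈ Ico v (v + k) then f (t + 1) - f t else 0 := by
    intro t _
    unfold kk
    rw [if_neg (by omega : ¬(u ≤ t ∧ t < v)), sub_zero]
    by_cases ht : v ≤ t ∧ t < u
    · rw [if_pos ht, if_pos (by rw [mem_Ico, ← hu']; exact ht), one_mul]
    · rw [if_neg ht, if_neg (by rw [mem_Ico, ← hu']; exact ht), zero_mul]
  rw [sum_congr rfl h1, ← sum_filter]
  have h2 : (Ico a (a + N - 1)).filter (fun t => t ∈ Ico v (v + k)) = Ico v (v + (k : ℤ)) := by
    ext t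
    simp only [mem_filter, mem_Ico]
    omega
  rw [h2, tele_up, ← hu']

/-- the sum of `a ∇u` over the edges of the box -/
noncomputable def Dv (p q : ℤ) (N : ℕ) (a b : ℤ × ℤ → ℝ) (u : ℤ × ℤ → ℝ) : ℝ :=
  ∑ x ∈ Ico p (p + N - 1), ∑ y ∈ Ico q (q + N), a (x, y) * (u (x + 1, y) - u (x, y)) +
  ∑ x ∈ Ico p (p + N), ∑ y ∈ Ico q (q + N - 1), b (x, y) * (u (x, y + 1) - u (x, y))

/-- the energy of a flow -/
noncomputable def Fe (p q : ℤ) (N : ℕ) (a b : ℤ × ℤ → ℝ) : ℝ :=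
  ∑ x ∈ Ico p (p + N - 1), ∑ y ∈ Ico q (q + N), a (x, y) ^ 2 +
  ∑ x ∈ Ico p (p + N), ∑ y ∈ Ico q (q + N - 1), b (x, y) ^ 2

/-- **Flow to a set of columns.** -/
theorem flow_of_cols {p q : ℤ} {N : ℕ} {J : Finset ℤ} (hJ : J ⊆ Ico p (p + N))
    (hne : J.Nonempty) (y0 : ℤ → ℤ) (hy : ∀ x ∈ J, y0 x ∈ Ico q (q + N)) :
    ∃ a b : ℤ × ℤ → ℝ,
      (∀ u : ℤ × ℤ → ℝ, (∀ x ∈ J, u (x, y0 x) = 0) →
        ∑ z ∈ Bx p q N, u z = Dv p q N a b u) ∧
      (∀ z, |a z| ≤ N) ∧ (∀ z, |b z| ≤ (N : ℝ) ^ 2 / #J) ∧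
      Fe p q N a b ≤ (N : ℝ) ^ 4 * (N / #J + 1) := by
  classical
  set X := Ico p (p + N) with hX
  set Y := Ico q (q + N) with hY
  have hcX : (#X : ℝ) = N := by simp [hX]
  have hcY : (#Y : ℝ) = N := by simp [hY]
  have hJ0 : (0 : ℝ) < #J := by exact_mod_cast card_pos.2 hne
  have hcard1 : (#(Ico q (q + N - 1)) : ℝ) ≤ N := by
    rw [Int.card_Ico]
    have : (q + N - 1 - q).toNat ≤ N := by omega
    exact_mod_cast this
  have hcard2 : (#(Ico p (p + N - 1)) : ℝ) ≤ N := by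
    rw [Int.card_Ico]
    have : (p + N - 1 - p).toNat ≤ N := by omega
    exact_mod_cast this
  set a : ℤ × ℤ → ℝ := fun z => (∑ x ∈ J, ∑ z1 ∈ X, kk x z1 z.1) / #J with ha
  set b : ℤ × ℤ → ℝ := fun z => if z.1 ∈ J then
    N * (∑ z2 ∈ Y, kk (y0 z.1) z2 z.2) / #J else 0 with hb
  have hab : ∀ z, |a z| ≤ N := by
    intro z
    rw [ha]
    simp only
    rw [abs_div, abs_of_pos hJ0, div_le_iff₀ hJ0]
    calc |∑ x ∈ J, ∑ z1 ∈ X, kk x z1 z.1| ≤ ∑ x ∈ J, |∑ z1 ∈ X, kk x z1 z.1| :=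
          abs_sum_le_sum_abs _ _
      _ ≤ ∑ _x ∈ J, (N : ℝ) := by
          refine sum_le_sum fun x _ => (abs_sum_le_sum_abs _ _).trans ?_
          calc ∑ z1 ∈ X, |kk x z1 z.1| ≤ ∑ _z1 ∈ X, (1 : ℝ) := sum_le_sum fun _ _ => abs_kk _ _ _
            _ = N := by rw [sum_const, nsmul_eq_mul, mul_one, hcX]
      _ = N * #J := by rw [sum_const, nsmul_eq_mul, mul_comm]
  have hbb : ∀ z, |b z| ≤ (N : ℝ) ^ 2 / #J := by
    intro z
    rw [hb]
    simp only
    split_ifs with h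
    · rw [abs_div, abs_of_pos hJ0, abs_mul, abs_of_nonneg (by positivity : (0 : ℝ) ≤ N), pow_two]
      refine div_le_div_of_nonneg_right (mul_le_mul_of_nonneg_left ?_ (by positivity)) hJ0.le
      calc |∑ z2 ∈ Y, kk (y0 z.1) z2 z.2| ≤ ∑ z2 ∈ Y, |kk (y0 z.1) z2 z.2| :=
            abs_sum_le_sum_abs _ _
        _ ≤ ∑ _z2 ∈ Y, (1 : ℝ) := sum_le_sum fun _ _ => abs_kk _ _ _
        _ = N := by rw [sum_const, nsmul_eq_mul, mul_one, hcY]
    · rw [abs_zero]; positivity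
  refine ⟨a, b, ?_, hab, hbb, ?_⟩
  · intro u hu
    have key : ∀ x ∈ J, ∑ z ∈ Bx p q N, u z =
        (∑ t ∈ Ico p (p + N - 1), ∑ y ∈ Y, (∑ z1 ∈ X, kk x z1 t) * (u (t + 1, y) - u (t, y))) +
        N * ∑ t ∈ Ico q (q + N - 1), (∑ z2 ∈ Y, kk (y0 x) z2 t) * (u (x, t + 1) - u (x, t)) := by
      intro x hx
      have h1 : ∀ z1 ∈ X, ∀ z2 ∈ Y, u (z1, z2) =
          (∑ t ∈ Ico p (p + N - 1), kk x z1 t * (u (t + 1, z2) - u (t, z2))) +
          ∑ t ∈ Ico q (q + N - 1), kk (y0 x) z2 t * (u (x, t + 1) - u (x, t)) := by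
        intro z1 hz1 z2 hz2
        rw [tele (fun t => u (t, z2)) hz1 (hJ hx), tele (fun t => u (x, t)) hz2 (hy x hx)]
        have := hu x hx
        linarith
      calc ∑ z ∈ Bx p q N, u z = ∑ z1 ∈ X, ∑ z2 ∈ Y, u (z1, z2) := by rw [Bx, sum_product]
        _ = ∑ z1 ∈ X, ∑ z2 ∈ Y,
            ((∑ t ∈ Ico p (p + N - 1), kk x z1 t * (u (t + 1, z2) - u (t, z2))) +
            ∑ t ∈ Ico q (q + N - 1), kk (y0 x) z2 t * (u (x, t + 1) - u (x, t))) :=
          sum_congr rfl fun z1 hz1 => sum_congr rfl fun z2 hz2 => h1 z1 hz1 z2 hz2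
        _ = (∑ z1 ∈ X, ∑ z2 ∈ Y, ∑ t ∈ Ico p (p + N - 1),
              kk x z1 t * (u (t + 1, z2) - u (t, z2))) +
            ∑ _z1 ∈ X, ∑ z2 ∈ Y, ∑ t ∈ Ico q (q + N - 1),
              kk (y0 x) z2 t * (u (x, t + 1) - u (x, t)) := by
          simp only [sum_add_distrib]
        _ = _ := by
          congr 1
          · rw [sum_congr rfl fun z1 _ => sum_comm, sum_comm]
            refine sum_congr rfl fun t _ => ?_
            rw [sum_comm]
            refine sum_congr rfl fun y _ => ?_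
            rw [sum_mul]
          · rw [sum_const, nsmul_eq_mul, hcX]
            congr 1
            rw [sum_comm]
            refine sum_congr rfl fun t _ => ?_
            rw [sum_mul]
    have hsum : (#J : ℝ) * ∑ z ∈ Bx p q N, u z = #J * Dv p q N a b u := by
      calc (#J : ℝ) * ∑ z ∈ Bx p q N, u z = ∑ _x ∈ J, ∑ z ∈ Bx p q N, u z := by
            rw [sum_const, nsmul_eq_mul]
        _ = ∑ x ∈ J, ((∑ t ∈ Ico p (p + N - 1), ∑ y ∈ Y,
              (∑ z1 ∈ X, kk x z1 t) * (u (t + 1, y) - u (t, y))) +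
            N * ∑ t ∈ Ico q (q + N - 1),
              (∑ z2 ∈ Y, kk (y0 x) z2 t) * (u (x, t + 1) - u (x, t))) := sum_congr rfl key
        _ = _ := by
          rw [sum_add_distrib, Dv, mul_add]
          congr 1
          · rw [sum_comm, mul_sum]
            refine sum_congr rfl fun t _ => ?_
            rw [sum_comm, mul_sum]
            refine sum_congr rfl fun y _ => ?_
            rw [← sum_mul, ha]
            field_simp
          · have h3 : ∀ x ∈ X, x ∉ J → ∑ y ∈ Ico q (q + N - 1),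
                b (x, y) * (u (x, y + 1) - u (x, y)) = 0 := by
              intro x _ hx
              refine sum_eq_zero fun y _ => ?_
              rw [hb]
              simp [hx]
            rw [← sum_subset hJ h3, mul_sum]
            refine sum_congr rfl fun x hx => ?_
            rw [mul_sum, mul_sum]
            refine sum_congr rfl fun t _ => ?_
            rw [hb]
            simp only [hx, if_true]
            field_simp
    exact mul_left_cancel₀ hJ0.ne' hsum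
  · have h1 : ∑ x ∈ Ico p (p + N - 1), ∑ y ∈ Y, a (x, y) ^ 2 ≤ (N : ℝ) ^ 4 := by
      have h2 : ∀ z, a z ^ 2 ≤ (N : ℝ) ^ 2 := fun z => by
        rw [← sq_abs]
        exact pow_le_pow_left₀ (abs_nonneg _) (hab z) 2
      calc ∑ x ∈ Ico p (p + N - 1), ∑ y ∈ Y, a (x, y) ^ 2 ≤
            ∑ _x ∈ Ico p (p + N - 1), ∑ _y ∈ Y, (N : ℝ) ^ 2 :=
            sum_le_sum fun x _ => sum_le_sum fun y _ => h2 _
        _ = #(Ico p (p + N - 1)) * (N * (N : ℝ) ^ 2) := by
          rw [sum_const, sum_const, nsmul_eq_mul, nsmul_eq_mul, hcY]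
        _ ≤ N * (N * (N : ℝ) ^ 2) := mul_le_mul_of_nonneg_right hcard2 (by positivity)
        _ = _ := by ring
    have h3 : ∑ x ∈ X, ∑ y ∈ Ico q (q + N - 1), b (x, y) ^ 2 ≤ (N : ℝ) ^ 5 / #J := by
      have h4 : ∀ z, b z ^ 2 ≤ ((N : ℝ) ^ 2 / #J) ^ 2 := fun z => by
        rw [← sq_abs]
        exact pow_le_pow_left₀ (abs_nonneg _) (hbb z) 2
      have h5 : ∀ x ∈ X, x ∉ J → ∑ y ∈ Ico q (q + N - 1), b (x, y) ^ 2 = 0 := by
        intro x _ hx
        refine sum_eq_zero fun y _ => ?_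
        rw [hb]
        simp [hx]
      rw [← sum_subset hJ h5]
      calc ∑ x ∈ J, ∑ y ∈ Ico q (q + N - 1), b (x, y) ^ 2 ≤
            ∑ _x ∈ J, ∑ _y ∈ Ico q (q + N - 1), ((N : ℝ) ^ 2 / #J) ^ 2 :=
            sum_le_sum fun x _ => sum_le_sum fun y _ => h4 _
        _ = #J * (#(Ico q (q + N - 1)) * ((N : ℝ) ^ 2 / #J) ^ 2) := by
          rw [sum_const, sum_const, nsmul_eq_mul, nsmul_eq_mul]
        _ ≤ #J * (N * ((N : ℝ) ^ 2 / #J) ^ 2) := mul_le_mul_of_nonneg_left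
          (mul_le_mul_of_nonneg_right hcard1 (by positivity)) hJ0.le
        _ = _ := by field_simp
    have e : (N : ℝ) ^ 4 * (N / #J + 1) = (N : ℝ) ^ 4 + (N : ℝ) ^ 5 / #J := by ring
    rw [e, Fe]
    exact add_le_add h1 h3

lemma Dv_swap (p q : ℤ) (N : ℕ) (a b : ℤ × ℤ → ℝ) (u : ℤ × ℤ → ℝ) :
    Dv q p N a b (fun z => u (z.2, z.1)) =
      Dv p q N (fun z => b (z.2, z.1)) (fun z => a (z.2, z.1)) u := by
  unfold Dv
  rw [add_comm]
  congr 1
  · rw [sum_comm]
  · rw [sum_comm]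

lemma Fe_swap (p q : ℤ) (N : ℕ) (a b : ℤ × ℤ → ℝ) :
    Fe p q N (fun z => b (z.2, z.1)) (fun z => a (z.2, z.1)) = Fe q p N a b := by
  unfold Fe
  rw [add_comm]
  congr 1
  · rw [sum_comm]
  · rw [sum_comm]

/-- **DIAM, flow form.** A lattice path (steps at most one in each coordinate) in the box whose end
points differ by at least `ℓ ≥ 1` in one coordinate: there is a flow `(a, b)` on the horizontal and
vertical edges of the box, `|a|, |b| ≤ N² / ℓ`, energy at most `N⁴ (N / ℓ + 1)`, with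
`∑_Q u = ∑ a ∇u` for every `u` vanishing on the path. -/
theorem flow_of_path {p q : ℤ} {N ℓ : ℕ} (hl : 1 ≤ ℓ) (c : ℕ → ℤ × ℤ) (m : ℕ)
    (hc : ∀ i ≤ m, c i ∈ Bx p q N)
    (hs : ∀ i < m, |(c (i + 1)).1 - (c i).1| ≤ 1 ∧ |(c (i + 1)).2 - (c i).2| ≤ 1)
    (hd : (ℓ : ℤ) ≤ |(c m).1 - (c 0).1| ∨ (ℓ : ℤ) ≤ |(c m).2 - (c 0).2|) :
    ∃ a b : ℤ × ℤ → ℝ,
      (∀ u : ℤ × ℤ → ℝ, (∀ i ≤ m, u (c i) = 0) → ∑ z ∈ Bx p q N, u z = Dv p q N a b u) ∧
      (∀ z, |a z| ≤ (N : ℝ) ^ 2 / ℓ) ∧ (∀ z, |b z| ≤ (N : ℝ) ^ 2 / ℓ) ∧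
      Fe p q N a b ≤ (N : ℝ) ^ 4 * (N / ℓ + 1) := by
  have hl0 : (0 : ℝ) < ℓ := by exact_mod_cast hl
  have hmem : ∀ i ≤ m, (c i).1 ∈ Ico p (p + N) ∧ (c i).2 ∈ Ico q (q + N) := by
    intro i hi
    have := hc i hi
    rwa [Bx, mem_product] at this
  have hlN : ℓ ≤ N := by
    have h1 := hmem 0 (Nat.zero_le _)
    have h2 := hmem m le_rfl
    simp only [mem_Ico] at h1 h2
    rcases hd with hd | hd
    · rcases abs_cases ((c m).1 - (c 0).1) with h | h <;> omega
    · rcases abs_cases ((c m).2 - (c 0).2) with h | h <;> omega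
  have hlN' : (ℓ : ℝ) ≤ N := by exact_mod_cast hlN
  have hNl : (N : ℝ) ≤ (N : ℝ) ^ 2 / ℓ := by
    rw [le_div_iff₀ hl0, pow_two]
    exact mul_le_mul_of_nonneg_left hlN' (by positivity)
  have hfin : ∀ J : Finset ℤ, ℓ ≤ #J → (N : ℝ) ^ 4 * (N / #J + 1) ≤ (N : ℝ) ^ 4 * (N / ℓ + 1) ∧
      (N : ℝ) ^ 2 / #J ≤ (N : ℝ) ^ 2 / ℓ := by
    intro J hJ
    have h1 : (N : ℝ) / #J ≤ N / ℓ := div_le_div_of_nonneg_left (by positivity) hl0
      (by exact_mod_cast hJ)
    exact ⟨mul_le_mul_of_nonneg_left (by linarith) (by positivity),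
      div_le_div_of_nonneg_left (by positivity) hl0 (by exact_mod_cast hJ)⟩
  rcases hd with hd | hd
  · set J := Icc (min (c 0).1 (c m).1) (max (c 0).1 (c m).1) with hJd
    have hcard : ℓ ≤ #J := by
      rw [hJd, Int.card_Icc]
      rcases le_total (c 0).1 (c m).1 with h | h
      · rw [min_eq_left h, max_eq_right h]
        rw [abs_of_nonneg (sub_nonneg.2 h)] at hd
        omega
      · rw [min_eq_right h, max_eq_left h]
        rw [abs_of_nonpos (sub_nonpos.2 h)] at hd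
        omega
    have hne : J.Nonempty := card_pos.1 (by omega)
    have hJs : J ⊆ Ico p (p + N) := by
      intro x hx
      rw [hJd, mem_Icc] at hx
      have h1 := mem_Ico.1 (hmem 0 (Nat.zero_le _)).1
      have h2 := mem_Ico.1 (hmem m le_rfl).1
      rw [mem_Ico]
      rcases le_total (c 0).1 (c m).1 with h | h
      · rw [min_eq_left h, max_eq_right h] at hx
        omega
      · rw [min_eq_right h, max_eq_left h] at hx
        omega
    have hpick : ∀ x : ℤ, ∃ i, x ∈ J → i ≤ m ∧ (c i).1 = x := by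
      intro x
      by_cases hx : x ∈ J
      · rw [hJd, mem_Icc] at hx
        obtain ⟨i, hi, e⟩ := ivt_both (fun i => (c i).1) m (fun i hi => (hs i hi).1) hx.1 hx.2
        exact ⟨i, fun _ => ⟨hi, e⟩⟩
      · exact ⟨0, fun h => absurd h hx⟩
    choose i0 hi0 using hpick
    obtain ⟨a, b, h1, h2, h3, h4⟩ := flow_of_cols (q := q) hJs hne (fun x => (c (i0 x)).2)
      (fun x hx => (hmem _ (hi0 x hx).1).2)
    refine ⟨a, b, fun u hu => h1 u fun x hx => ?_, fun z => (h2 z).trans hNl,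
      fun z => (h3 z).trans (hfin J hcard).2, h4.trans (hfin J hcard).1⟩
    have := hu _ (hi0 x hx).1
    rw [← this]
    congr 1
    exact Prod.ext (hi0 x hx).2.symm rfl
  · set J := Icc (min (c 0).2 (c m).2) (max (c 0).2 (c m).2) with hJd
    have hcard : ℓ ≤ #J := by
      rw [hJd, Int.card_Icc]
      rcases le_total (c 0).2 (c m).2 with h | h
      · rw [min_eq_left h, max_eq_right h]
        rw [abs_of_nonneg (sub_nonneg.2 h)] at hd
        omega
      · rw [min_eq_right h, max_eq_left h]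
        rw [abs_of_nonpos (sub_nonpos.2 h)] at hd
        omega
    have hne : J.Nonempty := card_pos.1 (by omega)
    have hJs : J ⊆ Ico q (q + N) := by
      intro x hx
      rw [hJd, mem_Icc] at hx
      have h1 := mem_Ico.1 (hmem 0 (Nat.zero_le _)).2
      have h2 := mem_Ico.1 (hmem m le_rfl).2
      rw [mem_Ico]
      rcases le_total (c 0).2 (c m).2 with h | h
      · rw [min_eq_left h, max_eq_right h] at hx
        omega
      · rw [min_eq_right h, max_eq_left h] at hx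
        omega
    have hpick : ∀ x : ℤ, ∃ i, x ∈ J → i ≤ m ∧ (c i).2 = x := by
      intro x
      by_cases hx : x ∈ J
      · rw [hJd, mem_Icc] at hx
        obtain ⟨i, hi, e⟩ := ivt_both (fun i => (c i).2) m (fun i hi => (hs i hi).2) hx.1 hx.2
        exact ⟨i, fun _ => ⟨hi, e⟩⟩
      · exact ⟨0, fun h => absurd h hx⟩
    choose i0 hi0 using hpick
    obtain ⟨a, b, h1, h2, h3, h4⟩ := flow_of_cols (q := p) hJs hne (fun x => (c (i0 x)).1)
      (fun x hx => (hmem _ (hi0 x hx).1).1)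
    refine ⟨fun z => b (z.2, z.1), fun z => a (z.2, z.1), fun u hu => ?_,
      fun z => (h3 _).trans (hfin J hcard).2, fun z => (h2 _).trans hNl, ?_⟩
    · have := h1 (fun z => u (z.2, z.1)) (fun x hx => by
        have h := hu _ (hi0 x hx).1
        rw [← h]
        show u (_, _) = _
        congr 1
        exact Prod.ext rfl (hi0 x hx).2.symm)
      rw [sum_swap, Dv_swap] at this
      exact this
    · rw [Fe_swap]
      exact h4.trans (hfin J hcard).1

end Vale.Agent.P159.TM.H504
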