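import Mathlib

/-!
P159, part A1: the deterministic inequality. A function on a box of `ℤ²` which vanishes on a path of
diameter comparable with the side has a mean controlled by its Dirichlet energy in the box.
-/

open Finset

namespace Vale.Agent.P159.TM.H504

/-- the box of side `N` with lower left corner `(p, q)` -/
noncomputable def Bx (p q : ℤ) (N : ℕ) : Finset (ℤ × ℤ) := Ico p (p + N) ×ˢ Ico q (q + N)

/-- the Dirichlet energy of `g` in the box -/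
noncomputable def En (p q : ℤ) (N : ℕ) (g : ℤ × ℤ → ℝ) : ℝ :=
  ∑ x ∈ Ico p (p + N - 1), ∑ y ∈ Ico q (q + N), (g (x + 1, y) - g (x, y)) ^ 2 +
  ∑ x ∈ Ico p (p + N), ∑ y ∈ Ico q (q + N - 1), (g (x, y + 1) - g (x, y)) ^ 2

/-- one dimensional oscillation -/
lemma osc_line (f : ℤ → ℝ) {a : ℤ} {N : ℕ} {u v : ℤ} (hu : u ∈ Ico a (a + N))
    (hv : v ∈ Ico a (a + N)) :
    |f u - f v| ≤ ∑ x ∈ Ico a (a + N - 1), |f (x + 1) - f x| := by
  wlog h : v ≤ u generalizing u v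
  · rw [abs_sub_comm]
    exact this hv hu (le_of_not_ge h)
  rw [mem_Ico] at hu hv
  obtain ⟨k, hk⟩ := Int.eq_ofNat_of_zero_le (sub_nonneg.2 h)
  have key : ∀ k : ℕ, |f (v + k) - f v| ≤ ∑ x ∈ Ico v (v + k), |f (x + 1) - f x| := by
    intro k
    induction k with
    | zero => simp
    | succ k ih =>
      have h1 : Ico v (v + ((k + 1 : ℕ) : ℤ)) = insert (v + (k : ℤ)) (Ico v (v + (k : ℤ))) := by
        ext x
        simp only [mem_Ico, mem_insert, Nat.cast_add, Nat.cast_one]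
        omega
      rw [h1, sum_insert (by simp)]
      have h2 : f (v + ((k + 1 : ℕ) : ℤ)) - f v =
          (f (v + k + 1) - f (v + k)) + (f (v + k) - f v) := by
        push_cast
        rw [show v + ((k : ℤ) + 1) = v + k + 1 by ring]
        ring
      rw [h2]
      exact (abs_add_le _ _).trans (add_le_add le_rfl ih)
  have hk' : u = v + k := by
    have : u - v = (k : ℤ) := hk
    omega
  rw [hk']
  refine (key k).trans (sum_le_sum_of_subset_of_nonneg ?_ fun _ _ _ => abs_nonneg _)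
  intro x hx
  rw [mem_Ico] at hx ⊢
  omega

/-- **Mean versus energy.** If every column of the nonempty set `J` of columns contains a zero of
`g` in the box then `(∑_Q g)² ≤ 2 N⁴ (N / |J| + 1) E_Q(g)`. -/
theorem sum_sq_le_of_cols {p q : ℤ} {N : ℕ} {g : ℤ × ℤ → ℝ} {J : Finset ℤ}
    (hJ : J ⊆ Ico p (p + N)) (hne : J.Nonempty)
    (hz : ∀ x ∈ J, ∃ y ∈ Ico q (q + N), g (x, y) = 0) :
    (∑ z ∈ Bx p q N, g z) ^ 2 ≤ 2 * (N : ℝ) ^ 4 * (N / #J + 1) * En p q N g := by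
  classical
  set X := Ico p (p + N) with hX
  set Y := Ico q (q + N) with hY
  have hcX : (#X : ℝ) = N := by simp [hX]
  have hcY : (#Y : ℝ) = N := by simp [hY]
  have hJ0 : (0 : ℝ) < #J := by exact_mod_cast card_pos.2 hne
  have hN1 : 0 < #X := card_pos.2 (hne.mono hJ)
  have hN0 : (0 : ℝ) < N := by rw [← hcX]; exact_mod_cast hN1
  set V : ℤ → ℝ := fun x => ∑ y ∈ Ico q (q + N - 1), |g (x, y + 1) - g (x, y)| with hV
  set H : ℤ → ℝ := fun y => ∑ x ∈ Ico p (p + N - 1), |g (x + 1, y) - g (x, y)| with hH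
  have h1 : ∀ x ∈ J, ∀ y ∈ Y, |g (x, y)| ≤ V x := by
    intro x hx y hy
    obtain ⟨y0, hy0, h0⟩ := hz x hx
    have := osc_line (fun t => g (x, t)) hy hy0
    simpa [h0] using this
  have h2 : ∀ x ∈ J, ∀ z ∈ X, ∀ y ∈ Y, |g (z, y)| ≤ V x + H y := by
    intro x hx z hz' y hy
    have h3 := osc_line (fun t => g (t, y)) hz' (hJ hx)
    have h4 : g (z, y) = (g (z, y) - g (x, y)) + g (x, y) := by ring
    rw [h4, add_comm (V x)]
    exact (abs_add_le _ _).trans (add_le_add h3 (h1 x hx y hy))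
  -- sum over the columns of `J`
  have h5 : (#J : ℝ) * |∑ z ∈ Bx p q N, g z| ≤
      (N : ℝ) ^ 2 * ∑ x ∈ J, V x + #J * (N * ∑ y ∈ Y, H y) := by
    have h6 : ∀ x ∈ J, |∑ z ∈ Bx p q N, g z| ≤ (N : ℝ) ^ 2 * V x + N * ∑ y ∈ Y, H y := by
      intro x hx
      calc |∑ z ∈ Bx p q N, g z| ≤ ∑ z ∈ Bx p q N, |g z| := abs_sum_le_sum_abs _ _
        _ = ∑ z ∈ X, ∑ y ∈ Y, |g (z, y)| := by rw [Bx, sum_product]
        _ ≤ ∑ _z ∈ X, ∑ y ∈ Y, (V x + H y) :=
          sum_le_sum fun z hz' => sum_le_sum fun y hy => h2 x hx z hz' y hy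
        _ = _ := by
          rw [sum_const, sum_add_distrib, sum_const, nsmul_eq_mul, nsmul_eq_mul, hcX, hcY]
          ring
    calc (#J : ℝ) * |∑ z ∈ Bx p q N, g z| = ∑ _x ∈ J, |∑ z ∈ Bx p q N, g z| := by
          rw [sum_const, nsmul_eq_mul]
      _ ≤ ∑ x ∈ J, ((N : ℝ) ^ 2 * V x + N * ∑ y ∈ Y, H y) := sum_le_sum h6
      _ = _ := by rw [sum_add_distrib, sum_const, nsmul_eq_mul, ← mul_sum]
  set E1 : ℝ := ∑ x ∈ Ico p (p + N - 1), ∑ y ∈ Y, (g (x + 1, y) - g (x, y)) ^ 2 with hE1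
  set E2 : ℝ := ∑ x ∈ X, ∑ y ∈ Ico q (q + N - 1), (g (x, y + 1) - g (x, y)) ^ 2 with hE2
  have hEn : En p q N g = E1 + E2 := rfl
  have hE1' : 0 ≤ E1 := sum_nonneg fun _ _ => sum_nonneg fun _ _ => sq_nonneg _
  have hE2' : 0 ≤ E2 := sum_nonneg fun _ _ => sum_nonneg fun _ _ => sq_nonneg _
  have hcard1 : (#(Ico q (q + N - 1)) : ℝ) ≤ N := by
    rw [Int.card_Ico]
    have : (q + N - 1 - q).toNat ≤ N := by omega
    exact_mod_cast this
  have hcard2 : (#(Ico p (p + N - 1)) : ℝ) ≤ N := by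
    rw [Int.card_Ico]
    have : (p + N - 1 - p).toNat ≤ N := by omega
    exact_mod_cast this
  -- Cauchy-Schwarz for the vertical part
  have h7 : (∑ x ∈ J, V x) ^ 2 ≤ #J * N * E2 := by
    have h8 : (∑ x ∈ J, V x) ^ 2 ≤ #J * ∑ x ∈ J, V x ^ 2 := sq_sum_le_card_mul_sum_sq
    have h9 : ∀ x, V x ^ 2 ≤ N * ∑ y ∈ Ico q (q + N - 1), (g (x, y + 1) - g (x, y)) ^ 2 := by
      intro x
      have h10 : V x ^ 2 ≤ #(Ico q (q + N - 1)) *
          ∑ y ∈ Ico q (q + N - 1), |g (x, y + 1) - g (x, y)| ^ 2 := sq_sum_le_card_mul_sum_sq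
      simp only [sq_abs] at h10
      exact h10.trans (mul_le_mul_of_nonneg_right hcard1 (sum_nonneg fun _ _ => sq_nonneg _))
    calc (∑ x ∈ J, V x) ^ 2 ≤ #J * ∑ x ∈ J, V x ^ 2 := h8
      _ ≤ #J * ∑ x ∈ X, N * ∑ y ∈ Ico q (q + N - 1), (g (x, y + 1) - g (x, y)) ^ 2 := by
        refine mul_le_mul_of_nonneg_left ?_ hJ0.le
        exact (sum_le_sum fun x _ => h9 x).trans (sum_le_sum_of_subset_of_nonneg hJ
          fun _ _ _ => mul_nonneg hN0.le (sum_nonneg fun _ _ => sq_nonneg _))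
      _ = _ := by rw [← mul_sum, hE2]; ring
  have h11 : (∑ y ∈ Y, H y) ^ 2 ≤ (N : ℝ) ^ 2 * E1 := by
    have h8 : (∑ y ∈ Y, H y) ^ 2 ≤ #Y * ∑ y ∈ Y, H y ^ 2 := sq_sum_le_card_mul_sum_sq
    have h9 : ∀ y, H y ^ 2 ≤ N * ∑ x ∈ Ico p (p + N - 1), (g (x + 1, y) - g (x, y)) ^ 2 := by
      intro y
      have h10 : H y ^ 2 ≤ #(Ico p (p + N - 1)) *
          ∑ x ∈ Ico p (p + N - 1), |g (x + 1, y) - g (x, y)| ^ 2 := sq_sum_le_card_mul_sum_sq
      simp only [sq_abs] at h10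
      exact h10.trans (mul_le_mul_of_nonneg_right hcard2 (sum_nonneg fun _ _ => sq_nonneg _))
    calc (∑ y ∈ Y, H y) ^ 2 ≤ #Y * ∑ y ∈ Y, H y ^ 2 := h8
      _ ≤ N * ∑ y ∈ Y, N * ∑ x ∈ Ico p (p + N - 1), (g (x + 1, y) - g (x, y)) ^ 2 := by
        rw [hcY]
        exact mul_le_mul_of_nonneg_left (sum_le_sum fun y _ => h9 y) hN0.le
      _ = _ := by
        rw [← mul_sum, hE1, sum_comm]
        ring
  have h12 : |∑ z ∈ Bx p q N, g z| ≤
      (N : ℝ) ^ 2 / #J * ∑ x ∈ J, V x + N * ∑ y ∈ Y, H y := by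
    have : |∑ z ∈ Bx p q N, g z| ≤
        ((N : ℝ) ^ 2 * ∑ x ∈ J, V x + #J * (N * ∑ y ∈ Y, H y)) / #J := by
      rw [le_div_iff₀ hJ0, mul_comm]
      exact h5
    refine this.trans (le_of_eq ?_)
    field_simp
  have h13 : (∑ z ∈ Bx p q N, g z) ^ 2 ≤
      2 * ((N : ℝ) ^ 2 / #J * ∑ x ∈ J, V x) ^ 2 + 2 * (N * ∑ y ∈ Y, H y) ^ 2 := by
    have ha : 0 ≤ |∑ z ∈ Bx p q N, g z| := abs_nonneg _
    rw [← sq_abs]
    have h14 := pow_le_pow_left₀ ha h12 2
    refine h14.trans ?_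
    nlinarith [sq_nonneg ((N : ℝ) ^ 2 / #J * ∑ x ∈ J, V x - N * ∑ y ∈ Y, H y)]
  refine h13.trans ?_
  have h15 : ((N : ℝ) ^ 2 / #J * ∑ x ∈ J, V x) ^ 2 ≤ (N : ℝ) ^ 4 * (N / #J) * E2 := by
    rw [mul_pow]
    calc ((N : ℝ) ^ 2 / #J) ^ 2 * (∑ x ∈ J, V x) ^ 2 ≤ ((N : ℝ) ^ 2 / #J) ^ 2 * (#J * N * E2) :=
          mul_le_mul_of_nonneg_left h7 (sq_nonneg _)
      _ = _ := by field_simp
  have h16 : (N * ∑ y ∈ Y, H y) ^ 2 ≤ (N : ℝ) ^ 4 * E1 := by
    rw [mul_pow]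
    calc (N : ℝ) ^ 2 * (∑ y ∈ Y, H y) ^ 2 ≤ (N : ℝ) ^ 2 * ((N : ℝ) ^ 2 * E1) :=
          mul_le_mul_of_nonneg_left h11 (sq_nonneg _)
      _ = _ := by ring
  rw [hEn]
  have h17 : 0 ≤ (N : ℝ) / #J := by positivity
  have h18 : 0 ≤ (N : ℝ) ^ 4 := by positivity
  nlinarith [mul_nonneg (mul_nonneg h18 h17) hE1', mul_nonneg h18 hE2']

/-- exchange of the coordinates -/
lemma En_swap (p q : ℤ) (N : ℕ) (g : ℤ × ℤ → ℝ) :
    En q p N (fun z => g (z.2, z.1)) = En p q N g := by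
  unfold En
  rw [add_comm]
  congr 1
  · rw [sum_comm]
  · rw [sum_comm]

lemma sum_swap (p q : ℤ) (N : ℕ) (g : ℤ × ℤ → ℝ) :
    ∑ z ∈ Bx q p N, g (z.2, z.1) = ∑ z ∈ Bx p q N, g z := by
  unfold Bx
  rw [sum_product, sum_product, sum_comm]

/-- the same with rows -/
theorem sum_sq_le_of_rows {p q : ℤ} {N : ℕ} {g : ℤ × ℤ → ℝ} {J : Finset ℤ}
    (hJ : J ⊆ Ico q (q + N)) (hne : J.Nonempty)
    (hz : ∀ y ∈ J, ∃ x ∈ Ico p (p + N), g (x, y) = 0) :
    (∑ z ∈ Bx p q N, g z) ^ 2 ≤ 2 * (N : ℝ) ^ 4 * (N / #J + 1) * En p q N g := by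
  have h := sum_sq_le_of_cols (p := q) (q := p) (N := N) (g := fun z => g (z.2, z.1)) hJ hne hz
  rw [sum_swap, En_swap] at h
  exact h

/-- discrete intermediate values along a sequence with steps at most one -/
lemma ivt_nat (c : ℕ → ℤ) (m : ℕ) (hs : ∀ i < m, |c (i + 1) - c i| ≤ 1) {t : ℤ}
    (h0 : c 0 ≤ t) (h1 : t ≤ c m) : ∃ i ≤ m, c i = t := by
  induction m with
  | zero => exact ⟨0, le_rfl, le_antisymm h0 h1⟩
  | succ m ih =>
    rcases le_or_gt t (c m) with h | h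
    · obtain ⟨i, hi, e⟩ := ih (fun i hi => hs i (by omega)) h
      exact ⟨i, by omega, e⟩
    · refine ⟨m + 1, le_rfl, ?_⟩
      have := abs_le.1 (hs m (by omega))
      omega

/-- the values between the end points are taken, in both directions -/
lemma ivt_both (c : ℕ → ℤ) (m : ℕ) (hs : ∀ i < m, |c (i + 1) - c i| ≤ 1) {t : ℤ}
    (h0 : min (c 0) (c m) ≤ t) (h1 : t ≤ max (c 0) (c m)) : ∃ i ≤ m, c i = t := by
  rcases le_total (c 0) (c m) with h | h
  · rw [min_eq_left h] at h0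
    rw [max_eq_right h] at h1
    exact ivt_nat c m hs h0 h1
  · rw [min_eq_right h] at h0
    rw [max_eq_left h] at h1
    obtain ⟨i, hi, e⟩ := ivt_nat (fun i => -c i) m (fun i hi => by
      have := hs i hi
      rw [abs_sub_comm] at this
      rw [show -c (i + 1) - -c i = c i - c (i + 1) by ring]
      exact this) (t := -t) (by omega) (by omega)
    exact ⟨i, hi, by omega⟩

/-- **A1, geometric lemma.** If `g` vanishes along a lattice path in the box whose end points differ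
by at least `ℓ ≥ 1` in one coordinate, then `(∑_Q g)² ≤ 2 N⁴ (N / ℓ + 1) E_Q(g)`. -/
theorem sum_sq_le_of_path {p q : ℤ} {N ℓ : ℕ} {g : ℤ × ℤ → ℝ} (hl : 1 ≤ ℓ) (c : ℕ → ℤ × ℤ)
    (m : ℕ) (hc : ∀ i ≤ m, c i ∈ Bx p q N ∧ g (c i) = 0)
    (hs : ∀ i < m, |(c (i + 1)).1 - (c i).1| ≤ 1 ∧ |(c (i + 1)).2 - (c i).2| ≤ 1)
    (hd : (ℓ : ℤ) ≤ |(c m).1 - (c 0).1| ∨ (ℓ : ℤ) ≤ |(c m).2 - (c 0).2|) :
    (∑ z ∈ Bx p q N, g z) ^ 2 ≤ 2 * (N : ℝ) ^ 4 * (N / ℓ + 1) * En p q N g := by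
  have hEn : 0 ≤ En p q N g := add_nonneg
    (sum_nonneg fun _ _ => sum_nonneg fun _ _ => sq_nonneg _)
    (sum_nonneg fun _ _ => sum_nonneg fun _ _ => sq_nonneg _)
  have hl0 : (0 : ℝ) < ℓ := by exact_mod_cast hl
  have hfin : ∀ J : Finset ℤ, J.Nonempty → ℓ ≤ #J →
      2 * (N : ℝ) ^ 4 * (N / #J + 1) * En p q N g ≤
        2 * (N : ℝ) ^ 4 * (N / ℓ + 1) * En p q N g := by
    intro J hJ hc
    refine mul_le_mul_of_nonneg_right (mul_le_mul_of_nonneg_left ?_ (by positivity)) hEn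
    have : (N : ℝ) / #J ≤ N / ℓ := div_le_div_of_nonneg_left (by positivity) hl0
      (by exact_mod_cast hc)
    linarith
  have hmem : ∀ i ≤ m, (c i).1 ∈ Ico p (p + N) ∧ (c i).2 ∈ Ico q (q + N) := by
    intro i hi
    have := (hc i hi).1
    rwa [Bx, mem_product] at this
  rcases hd with hd | hd
  · set J := Icc (min (c 0).1 (c m).1) (max (c 0).1 (c m).1) with hJd
    have hcard : ℓ ≤ #J := by
      rw [hJd, Int.card_Icc]
      rcases le_total (c 0).1 (c m).1 with h | h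
      · rw [min_eq_left h, max_eq_right h]
        rw [abs_of_nonneg (sub_nonneg.2 h)] at hd
        omega
      · rw [min_eq_right h, max_eq_left h]
        rw [abs_of_nonpos (sub_nonpos.2 h)] at hd
        omega
    have hne : J.Nonempty := card_pos.1 (by omega)
    refine (sum_sq_le_of_cols (J := J) ?_ hne ?_).trans (hfin J hne hcard)
    · intro x hx
      rw [hJd, mem_Icc] at hx
      have h1 := mem_Ico.1 (hmem 0 (Nat.zero_le _)).1
      have h2 := mem_Ico.1 (hmem m le_rfl).1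
      rw [mem_Ico]
      rcases le_total (c 0).1 (c m).1 with h | h
      · rw [min_eq_left h, max_eq_right h] at hx
        omega
      · rw [min_eq_right h, max_eq_left h] at hx
        omega
    · intro x hx
      rw [hJd, mem_Icc] at hx
      obtain ⟨i, hi, e⟩ := ivt_both (fun i => (c i).1) m (fun i hi => (hs i hi).1) hx.1 hx.2
      refine ⟨(c i).2, (hmem i hi).2, ?_⟩
      rw [← e]
      exact (hc i hi).2
  · set J := Icc (min (c 0).2 (c m).2) (max (c 0).2 (c m).2) with hJd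
    have hcard : ℓ ≤ #J := by
      rw [hJd, Int.card_Icc]
      rcases le_total (c 0).2 (c m).2 with h | h
      · rw [min_eq_left h, max_eq_right h]
        rw [abs_of_nonneg (sub_nonneg.2 h)] at hd
        omega
      · rw [min_eq_right h, max_eq_left h]
        rw [abs_of_nonpos (sub_nonpos.2 h)] at hd
        omega
    have hne : J.Nonempty := card_pos.1 (by omega)
    refine (sum_sq_le_of_rows (J := J) ?_ hne ?_).trans (hfin J hne hcard)
    · intro x hx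
      rw [hJd, mem_Icc] at hx
      have h1 := mem_Ico.1 (hmem 0 (Nat.zero_le _)).2
      have h2 := mem_Ico.1 (hmem m le_rfl).2
      rw [mem_Ico]
      rcases le_total (c 0).2 (c m).2 with h | h
      · rw [min_eq_left h, max_eq_right h] at hx
        omega
      · rw [min_eq_right h, max_eq_left h] at hx
        omega
    · intro x hx
      rw [hJd, mem_Icc] at hx
      obtain ⟨i, hi, e⟩ := ivt_both (fun i => (c i).2) m (fun i hi => (hs i hi).2) hx.1 hx.2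
      refine ⟨(c i).1, (hmem i hi).1, ?_⟩
      rw [← e]
      exact (hc i hi).2

end Vale.Agent.P159.TM.H504
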